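import Mathlib
import Vale.Agent.P319.SC.AIface

/-! P319, block SC, package ALG-CFG: the stable partition gives the fields of a configuration with
`m` levels, `2 m ≤ M`, except `cyc`. -/

set_option linter.all false

namespace Vale.Agent.P319.SC.H447

open Polynomial Vale.Agent.P319 Vale.Agent.P319.Ev Vale.Agent.P319.SC

section
variable {nr : ℕ → ℕ → ℕ → List (List ℕ)} {p N : ℕ} [hpf : Fact p.Prime] {g : List ℕ}
  {Z : Finset (ZMod p)} {M : ℕ} {E : List (List ℕ)}

theorem col_congr (hE : Good Z M E) {v w : ℕ → Z} (h : ∀ i < M, v i = w i) :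
    col hE v = col hE w := by
  rw [col_iff]
  exact ⟨col_mem hE w, by rw [vl_congr _ h]; exact col_ne hE w⟩

/-- the substitution `F` preserves equality of colours -/
def Adm (hE : Good Z M E) (F : ℕ → ℕ) : Prop :=
  ∀ V W : ℕ → Z, col hE V = col hE W → col hE (V ∘ F) = col hE (W ∘ F)

theorem Adm.comp {hE : Good Z M E} {F G : ℕ → ℕ} (hF : Adm hE F) (hG : Adm hE G) :
    Adm hE (F ∘ G) := fun V W h => by
  have := hG _ _ (hF V W h)
  exact this

theorem Adm.congr {hE : Good Z M E} {F G : ℕ → ℕ} (hF : Adm hE F) (h : ∀ i < M, F i = G i) :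
    Adm hE G := fun V W hVW => by
  have h1 := hF V W hVW
  rw [col_congr hE (v := V ∘ G) (w := V ∘ F) (fun i hi => by simp [h i hi]),
    col_congr hE (v := W ∘ G) (w := W ∘ F) (fun i hi => by simp [h i hi])]
  exact h1

theorem Adm.id {hE : Good Z M E} : Adm hE (fun i => i) := fun V W h => h

variable (H : SCtx nr p N g Z M E)

theorem mem_scTests_of_evTests {t : List ℕ} (h : t ∈ evTestsN nr p N g M E) :
    t ∈ scTestsN nr p N g M E := by
  unfold scTestsN
  exact List.mem_append_left _ h

theorem stab0 (H : SCtx nr p N g Z M E) {k : ℕ} {t : List ℕ} (hk : k + 1 < M)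
    (ht : t ∈ addL p (evX p g M k) (smulL p (p - 1) (evX p g M (k + 1))) ::
      evCycTestsN nr p N g M 2 (fun i => evX p g M (k + i))) : ∀ e ∈ E, Stab Z M t e := by
  apply H.stab
  apply mem_scTests_of_evTests
  unfold evTestsN evTests0N
  exact List.mem_append_left _ (List.mem_flatMap.2 ⟨k, List.mem_range.2 (by omega), ht⟩)

theorem stab1 (H : SCtx nr p N g Z M E) {k : ℕ} {t e' : List ℕ} (hk : k < M) (he' : e' ∈ E)
    (ht : t ∈ evTests1N nr p N g M e' k) : ∀ e ∈ E, Stab Z M t e := by
  apply H.stab
  apply mem_scTests_of_evTests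
  unfold evTestsN
  exact List.mem_append_right _ (List.mem_flatMap.2 ⟨e', he', List.mem_flatMap.2
    ⟨k, List.mem_range.2 hk, ht⟩⟩)

theorem stabU (H : SCtx nr p N g Z M E) {i j : ℕ} (hi : i < M) (hj : j < M) {e' : List ℕ}
    (he' : e' ∈ E) : ∀ e ∈ E, Stab Z M (evSubst p g M (scU M i j) e') e := by
  apply H.stab
  unfold scTestsN
  apply List.mem_append_right
  apply List.mem_append_right
  refine List.mem_flatMap.2 ⟨e', he', ?_⟩
  unfold scTests1
  apply List.mem_append_left
  exact List.mem_flatMap.2 ⟨i, List.mem_range.2 hi, List.mem_map.2 ⟨j, List.mem_range.2 hj, rfl⟩⟩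

theorem stab3 (H : SCtx nr p N g Z M E) (h4 : 4 ≤ g.length) {t : List ℕ}
    (ht : t ∈ evCycTestsN nr p N g M 3 (fun i => evX p g M i)) : ∀ e ∈ E, Stab Z M t e := by
  apply H.stab
  unfold scTestsN
  apply List.mem_append_right
  apply List.mem_append_left
  rw [if_pos h4]
  exact ht

/-- merges are admissible -/
theorem adm_upd (hvl : VLUStmt) (H : SCtx nr p N g Z M E) {i j : ℕ} (hi : i < M) (hj : j < M) :
    Adm H.good (Function.update (fun l => l) i j) := by
  intro V W hVW
  have h1 : ∀ v : ℕ → Z, v ∘ (Function.update (fun l => l) i j) = Function.update v i (v j) := by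
    intro v
    funext l
    by_cases hl : l = i
    · subst hl; simp
    · simp [Function.update_of_ne hl]
  rw [h1, h1]
  exact EvN.col_subst H.good (t := fun e => evSubst p g M (scU M i j) e)
    (f := fun v => Function.update v i (v j))
    (fun e he v => (hvl p g Z H.ctx.sit M i j hi hj e (H.good.vec e he)).2 v)
    (fun e' he' => stabU H hi hj he') hVW

theorem adm1 (hvl : VLUStmt) (H : SCtx nr p N g Z M E) {m : ℕ} (hm : 2 * m ≤ M) (f : ℕ → ℕ)
    (j : ℕ) (hj : j ≤ m) (hf : ∀ i < j, f i < m) :
    Adm H.good (fun l => if m ≤ l ∧ l < m + j then f (l - m) else l) := by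
  induction j with
  | zero =>
    refine Adm.id.congr fun i hi => ?_
    rw [if_neg (by omega)]
  | succ j ih =>
    have h1 := ih (by omega) (fun i hi => hf i (by omega))
    have h2 := hf j (by omega)
    have h3 := h1.comp (adm_upd hvl H (i := m + j) (j := f j) (by omega) (by omega))
    refine h3.congr fun l hl => ?_
    by_cases hlj : l = m + j
    · subst hlj
      simp only [Function.comp, Function.update_self]
      rw [if_neg (by omega), if_pos (by omega)]
      congr 1; omega
    · simp only [Function.comp, Function.update_of_ne hlj]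
      by_cases h5 : m ≤ l ∧ l < m + j
      · rw [if_pos h5, if_pos (by omega)]
      · rw [if_neg h5, if_neg (by omega)]

theorem adm2 (hvl : VLUStmt) (H : SCtx nr p N g Z M E) {m : ℕ} (hm : 2 * m ≤ M)
    (j : ℕ) (hj : j ≤ m) :
    Adm H.good (fun l => if l < j then m + l else l) := by
  induction j with
  | zero =>
    refine Adm.id.congr fun i hi => ?_
    rw [if_neg (by omega)]
  | succ j ih =>
    have h1 := ih (by omega)
    have h3 := h1.comp (adm_upd hvl H (i := j) (j := m + j) (by omega) (by omega))
    refine h3.congr fun l hl => ?_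
    by_cases hlj : l = j
    · subst hlj
      simp only [Function.comp, Function.update_self]
      rw [if_neg (by omega), if_pos (by omega)]
    · simp only [Function.comp, Function.update_of_ne hlj]
      by_cases h5 : l < j
      · rw [if_pos h5, if_pos (by omega)]
      · rw [if_neg h5, if_neg (by omega)]

theorem adm3 (hvl : VLUStmt) (H : SCtx nr p N g Z M E) {j : ℕ} (hj : 1 ≤ j) (hjM : j ≤ M) (n : ℕ)
    (hn : n ≤ M) : Adm H.good (fun l => if j ≤ l ∧ l < n then j - 1 else l) := by
  induction n with
  | zero =>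
    refine Adm.id.congr fun i hi => ?_
    rw [if_neg (by omega)]
  | succ n ih =>
    have h1 := ih (by omega)
    by_cases hjn : j ≤ n
    · have h3 := h1.comp (adm_upd hvl H (i := n) (j := j - 1) (by omega) (by omega))
      refine h3.congr fun l hl => ?_
      by_cases hlj : l = n
      · subst hlj
        simp only [Function.comp, Function.update_self]
        rw [if_neg (by omega), if_pos (by omega)]
      · simp only [Function.comp, Function.update_of_ne hlj]
        by_cases h5 : j ≤ l ∧ l < n
        · rw [if_pos h5, if_pos (by omega)]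
        · rw [if_neg h5, if_neg (by omega)]
    · refine h1.congr fun l hl => ?_
      rw [if_neg (by omega), if_neg (by omega)]

/-- all substitutions of the first `m` coordinates are admissible -/
theorem adm (hvl : VLUStmt) (H : SCtx nr p N g Z M E) {m : ℕ} (hm : 2 * m ≤ M) (f : ℕ → ℕ)
    {j : ℕ} (hj1 : 1 ≤ j) (hj : j ≤ m) (hf : ∀ i < j, f i < m) :
    Adm H.good (fun l => if l < j then f l else f (j - 1)) := by
  have h := ((adm1 hvl H hm f j hj hf).comp (adm2 hvl H hm j hj)).comp
    (adm3 hvl H hj1 (by omega) M le_rfl)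
  refine h.congr fun l hl => ?_
  simp only [Function.comp]
  by_cases hlj : l < j
  · have a1 : (if j ≤ l ∧ l < M then j - 1 else l) = l := if_neg (by omega)
    have a2 : m ≤ m + l ∧ m + l < m + j := by omega
    rw [a1, if_pos hlj, if_pos hlj, if_pos a2]
    congr 1; omega
  · have a1 : (if j ≤ l ∧ l < M then j - 1 else l) = j - 1 := if_pos (by omega)
    have a2 : j - 1 < j := by omega
    have a3 : m ≤ m + (j - 1) ∧ m + (j - 1) < m + j := by omega
    rw [a1, if_pos a2, if_neg hlj, if_pos a3]
    congr 1; omega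

theorem scCol_zero (hE : Good Z M E) (v : ℕ → Z) : scCol hE 0 v = [] := by
  unfold scCol; rw [if_pos rfl]

theorem scCol_pos (hE : Good Z M E) {k : ℕ} (hk : 1 ≤ k) (v : ℕ → Z) :
    scCol hE k v = col hE (ins (k - 1) v (v (k - 1))) := by
  unfold scCol; rw [if_neg (by omega)]

theorem cfg_dep (hE : Good Z M E) (k : ℕ) (v w : ℕ → Z) (h : ∀ i < k, v i = w i) :
    scCol hE k v = scCol hE k w := by
  rcases Nat.eq_zero_or_pos k with rfl | hk
  · rw [scCol_zero, scCol_zero]
  · rw [scCol_pos hE hk, scCol_pos hE hk]
    apply col_congr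
    intro i hi
    unfold ins
    split_ifs with h1
    · exact h i (by omega)
    · exact h _ (by omega)

theorem cfg_sub (hvl : VLUStmt) (H : SCtx nr p N g Z M E) {m : ℕ} (hm : 2 * m ≤ M) (j k : ℕ)
    (hj : j ≤ m) (hk : k ≤ m) (f : ℕ → ℕ) (hf : ∀ i < j, f i < k) (v w : ℕ → Z)
    (h : scCol H.good k v = scCol H.good k w) :
    scCol H.good j (v ∘ f) = scCol H.good j (w ∘ f) := by
  rcases Nat.eq_zero_or_pos j with rfl | hj0
  · rw [scCol_zero, scCol_zero]
  · have hk0 : 1 ≤ k := by have := hf 0 hj0; omega
    rw [scCol_pos _ hk0, scCol_pos _ hk0] at h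
    rw [scCol_pos _ hj0, scCol_pos _ hj0]
    have h1 := adm hvl H hm f hj0 hj (fun i hi => (hf i hi).trans_le hk) _ _ h
    have key : ∀ v : ℕ → Z, col H.good (ins (k - 1) v (v (k - 1)) ∘
        fun l => if l < j then f l else f (j - 1)) =
        col H.good (ins (j - 1) (v ∘ f) ((v ∘ f) (j - 1))) := by
      intro v
      apply col_congr
      intro i hi
      have hins : ∀ l < k, ins (k - 1) v (v (k - 1)) l = v l := by
        intro l hl
        unfold ins
        split_ifs with h3
        · rfl
        · congr 1; omega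
      simp only [Function.comp]
      by_cases h2 : i < j
      · rw [if_pos h2, hins _ (hf i h2)]
        unfold ins
        split_ifs with h3
        · rfl
        · have : i = j - 1 := by omega
          rw [this]
      · rw [if_neg h2, hins _ (hf (j - 1) (by omega))]
        unfold ins
        rw [if_neg (by omega)]
    rw [key, key] at h1
    exact h1

theorem cfg_eqv (hvl : VLUStmt) (H : SCtx nr p N g Z M E) {m : ℕ} (hm : 2 * m ≤ M) (hm3 : 3 ≤ m)
    (k : ℕ) (hk : k ≤ m) (v w : ℕ → Z) (h : scCol H.good k v = scCol H.good k w) (i : ℕ)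
    (hi : i < k) (j : ℕ) (hj : j < k) (hij : v i = v j) : w i = w j := by
  have hs := H.ctx.sit
  have h0 := cfg_sub hvl H hm 2 k (by omega) hk (fun l => if l = 0 then i else j)
    (by intro l _; beta_reduce; split_ifs <;> assumption) v w h
  rw [scCol_pos _ (by omega), scCol_pos _ (by omega)] at h0
  have h1 := vl_X (m := M) hs (i := 0) (by omega)
  have h2 := vl_X (m := M) hs (i := 1) (by omega)
  have h3 : ∀ v : ℕ → Z, vl Z M (addL p (evX p g M 0) (smulL p (p - 1) (evX p g M (0 + 1)))) v
      = (v 0 : ZMod p) - v 1 := by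
    intro v
    have h4 := vl_hom hs M v
    have h5 := h4.smul (p - 1) _ h2.1
    refine Eq.trans (h4.add _ _ h1.1 h5.1).2 ?_
    rw [h5.2, h1.2, h2.2]
    have h7 : ((p - 1 : ℕ) : ZMod p) = -1 := by
      rw [Nat.cast_sub hpf.out.one_lt.le]; simp
    rw [h7]; ring
  have h6 := (col_stab H.good (stab0 H (k := 0) (by omega) List.mem_cons_self) h0).1
  rw [h3, h3, sub_eq_zero, sub_eq_zero] at h6
  have h7 : ∀ v : ℕ → Z, ins (2 - 1) (v ∘ fun l => if l = 0 then i else j)
      ((v ∘ fun l => if l = 0 then i else j) (2 - 1)) 0 = v i := by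
    intro v; simp [ins]
  have h8 : ∀ v : ℕ → Z, ins (2 - 1) (v ∘ fun l => if l = 0 then i else j)
      ((v ∘ fun l => if l = 0 then i else j) (2 - 1)) 1 = v j := by
    intro v; simp [ins]
  rw [h7, h8, h7, h8] at h6
  exact Subtype.ext (h6 (by rw [hij]))

theorem cfg_ext (H : SCtx nr p N g Z M E) {m : ℕ} (hm : 2 * m ≤ M)
    (k : ℕ) (hk : k < m) (v w : ℕ → Z) (h : scCol H.good k v = scCol H.good k w) (i : List ℕ) :
    (Finset.univ.filter fun z => scCol H.good (k + 1) (ins k v z) = i).card =
      (Finset.univ.filter fun z => scCol H.good (k + 1) (ins k w z) = i).card := by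
  have hs := H.ctx.sit
  have hlen := hs.len
  rcases Nat.eq_zero_or_pos k with rfl | hk0
  · have e : ∀ (v : ℕ → Z) (z : Z), ins 0 v z = fun _ => z := by
      intro v z; funext l; simp [ins]
    simp only [e]
  · obtain ⟨k, rfl⟩ : ∃ k', k = k' + 1 := ⟨k - 1, by omega⟩
    rw [scCol_pos _ hk0, scCol_pos _ hk0] at h
    have hkM : k + 1 < M := by omega
    have hsc : ∀ (v : ℕ → Z) (z : Z), scCol H.good (k + 1 + 1) (ins (k + 1) v z) =
        col H.good (extT (k + 1) (ins (k + 1 - 1) v (v (k + 1 - 1))) z) := by
      intro v z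
      rw [scCol_pos _ (by omega)]
      apply col_congr
      intro l hl
      unfold extT ins
      by_cases h1 : l < k
      · simp [h1, show l < k + 1 by omega]
      · by_cases h2 : l < k + 1
        · have : l = k := by omega
          subst this
          simp
        · simp [h2]
    simp only [hsc]
    set u := ins (k + 1 - 1) v (v (k + 1 - 1)) with hu
    set u' := ins (k + 1 - 1) w (w (k + 1 - 1)) with hu'
    by_cases hi : i ∈ E
    · have h1 := vl_F hs hkM (H.good.vec i hi)
      have h2 := vl_tr hs hkM h1.1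
      have h3 : ∀ v : ℕ → Z, vl Z M (evTr p g M (k + 1) (evSubst p g M (evF M (k + 1)) i)) v =
          ((Finset.univ.filter fun z => col H.good (extT (k + 1) v z) = i).card : ZMod p) := by
        intro v
        rw [h2.2]
        have h4 : ∀ z : Z, vl Z M (evSubst p g M (evF M (k + 1)) i)
            (Function.update v (k + 1) z) = if col H.good (extT (k + 1) v z) = i then 1 else 0 := by
          intro z
          rw [h1.2, extT_update, Function.update_self, EvN.vl_col H.good hi]
        simp only [h4]
        rw [Finset.sum_boole]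
      have hle : ∀ v : ℕ → Z,
          (Finset.univ.filter fun z => col H.good (extT (k + 1) v z) = i).card ≤ Z.card := by
        intro v
        refine (Finset.card_filter_le _ _).trans ?_
        simp
      have hmem : (Finset.univ.filter fun z => col H.good (extT (k + 1) u z) = i).card <
          g.length := by
        have h9 := hle u
        have h10 := H.ctx.two
        omega
      have h5 := col_stab H.good (t := evSubC p g M (evTr p g M (k + 1)
        (evSubst p g M (evF M (k + 1)) i))
        (Finset.univ.filter fun z => col H.good (extT (k + 1) u z) = i).card)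
        (stab1 H hkM hi (by
          unfold evTests1N
          rw [if_neg (by omega)]
          exact List.mem_cons_of_mem _ (List.mem_cons_of_mem _ (List.mem_cons_of_mem _
            (List.mem_append_left _ (List.mem_map.2 ⟨_, List.mem_range.2 hmem, rfl⟩)))))) h
      rw [(vl_subC hs _ h2.1).2, (vl_subC hs _ h2.1).2, h3, h3] at h5
      have h6 := sub_eq_zero.1 (h5.1 (sub_self _))
      rw [ZMod.natCast_eq_natCast_iff'] at h6
      have h7 : Z.card < p := by have := H.ctx.sq; have := H.ctx.two; nlinarith
      rw [Nat.mod_eq_of_lt ((hle _).trans_lt h7), Nat.mod_eq_of_lt ((hle _).trans_lt h7)] at h6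
      exact h6.symm
    · have h8 : ∀ v : ℕ → Z,
          (Finset.univ.filter fun z => col H.good (extT (k + 1) v z) = i) = ∅ := by
        intro v
        apply Finset.filter_eq_empty_iff.2
        intro z _ h9
        exact hi (by rw [← h9]; exact col_mem H.good _)
      rw [h8, h8]

theorem cfg_anti2 (H : SCtx nr p N g Z M E) {m : ℕ} (hm : 2 * m ≤ M)
    (k : ℕ) (hk : k + 2 ≤ m) (v : ℕ → Z) (hne : v k ≠ v (k + 1)) :
    scCol H.good (k + 2) (v ∘ sw k) ≠ scCol H.good (k + 2) v := by
  intro heq
  have hs := H.ctx.sit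
  rw [scCol_pos _ (by omega), scCol_pos _ (by omega)] at heq
  have hu : (v k : ZMod p) ≠ v (k + 1) := fun h1 => hne (Subtype.ext h1)
  apply EvN.cyc_false H.ctx H.good Nat.prime_two H.ctx.two (b := fun i => evX p g M (k + i))
    (fun i hi => (vl_X hs (by omega)).1)
    (fun t ht => stab0 H (k := k) (by omega) (List.mem_cons_of_mem _ ht))
    (fun i => if i = 0 then (v k : ZMod p) else v (k + 1)) ?_
    (fun s => if s = 0 then ins (k + 2 - 1) v (v (k + 2 - 1)) else
      ins (k + 2 - 1) (v ∘ sw k) ((v ∘ sw k) (k + 2 - 1))) ?_ ?_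
  · intro i hi j hj hij
    interval_cases i <;> interval_cases j <;> simp at hij ⊢
    · exact hne hij
    · exact hne hij.symm
  · intro s hs
    interval_cases s
    · rfl
    · simpa using heq
  · intro s hs' i hi
    rw [(vl_X hs (by omega)).2]
    interval_cases s <;> interval_cases i <;> simp [ins, sw]

theorem cfg_anti3 (hvl : VLUStmt) (H : SCtx nr p N g Z M E) {m : ℕ} (hm : 2 * m ≤ M)
    (k : ℕ) (hk : k + 3 ≤ m) (v : ℕ → Z) (h1 : v k ≠ v (k + 1)) (h2 : v k ≠ v (k + 2))
    (h3 : v (k + 1) ≠ v (k + 2)) :
    scCol H.good (k + 3) (v ∘ ro k) ≠ scCol H.good (k + 3) v := by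
  intro heq
  have hs := H.ctx.sit
  have hlen := hs.len
  -- the coordinates
  set x : ℕ → Z := fun i => if i = 0 then v k else if i = 1 then v (k + 1) else v (k + 2) with hx
  -- three distinct points
  have hcard : 3 ≤ Z.card := by
    have h5 : Function.Injective fun i : Fin 3 => x i.1 := by
      intro i j hij
      fin_cases i <;> fin_cases j <;> simp [hx] at hij ⊢
      · exact h1 hij
      · exact h2 hij
      · exact h1 hij.symm
      · exact h3 hij
      · exact h2 hij.symm
      · exact h3 hij.symm
    have h6 := Fintype.card_le_of_injective _ h5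
    simpa using h6
  -- rotated tuples
  set T : ℕ → ℕ → Z := fun s i => x ((i + s) % 3) with hT
  have e1 : scCol H.good 3 (T 1) = scCol H.good 3 (T 0) := by
    have h4 := cfg_sub hvl H hm 3 (k + 3) (by omega) hk (fun i => k + i)
      (by intro i hi; beta_reduce; omega) _ _ heq
    rw [cfg_dep H.good 3 (T 1) ((v ∘ ro k) ∘ fun i => k + i) ?_,
      cfg_dep H.good 3 (T 0) (v ∘ fun i => k + i) ?_]
    · exact h4
    · intro i hi
      interval_cases i <;> simp [hT, hx]
    · intro i hi
      interval_cases i <;> simp [hT, hx, ro]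
  have e2 : scCol H.good 3 (T 2) = scCol H.good 3 (T 1) := by
    have h4 := cfg_sub hvl H hm 3 3 (by omega) (by omega) (fun i => (i + 1) % 3)
      (by intro i hi; exact Nat.mod_lt _ (by norm_num)) _ _ e1
    rw [cfg_dep H.good 3 (T 2) (T 1 ∘ fun i => (i + 1) % 3) ?_,
      cfg_dep H.good 3 (T 1) (T 0 ∘ fun i => (i + 1) % 3) ?_]
    · exact h4
    · intro i hi
      interval_cases i <;> simp [hT]
    · intro i hi
      interval_cases i <;> simp [hT]
  rw [scCol_pos _ (by omega), scCol_pos _ (by omega)] at e1 e2
  apply EvN.cyc_false H.ctx H.good Nat.prime_three hcard (b := fun i => evX p g M i)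
    (fun i hi => (vl_X hs (by omega)).1)
    (fun t ht => stab3 H (by omega) ht)
    (fun i => (x i : ZMod p)) ?_
    (fun s => ins (3 - 1) (T s) (T s (3 - 1))) ?_ ?_
  · intro i hi j hj hij
    have hij' : x i = x j := Subtype.ext hij
    interval_cases i <;> interval_cases j <;> simp [hx] at hij' ⊢
    · exact h1 hij'
    · exact h2 hij'
    · exact h1 hij'.symm
    · exact h3 hij'
    · exact h2 hij'.symm
    · exact h3 hij'.symm
  · intro s hs
    interval_cases s
    · rfl
    · exact e1
    · exact e2.trans e1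
  · intro s hs' i hi
    rw [(vl_X hs (by omega)).2]
    have : ins (3 - 1) (T s) (T s (3 - 1)) i = T s i := by
      unfold ins
      split_ifs with h9
      · rfl
      · congr 1; omega
    rw [this]

end

/-- **ALG-CFG** -/
theorem cfg : VLUStmt → CfgStmt := by
  intro hvl nr p N _ g Z M E H m hm hm3
  refine ⟨fun k hk v w h => cfg_dep H.good k v w h, cfg_sub hvl H hm, cfg_ext H hm, ?_, cfg_anti2 H hm,
    cfg_anti3 hvl H hm⟩
  intro k hk v w h i hi j hj hij
  exact cfg_eqv hvl H hm hm3 k hk v w h i hi j hj hij

end Vale.Agent.P319.SC.H447
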